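import Mathlib

/-!
# Explicit bounds for all derivatives of `expNegInvGlue` and `Real.smoothTransition`

Module for S0170 (row 126).  Everything here is stated in terms of Mathlib only.

* `fB k = ((2k)!)^2` bounds the `k`-th derivative of `expNegInvGlue`;
* `sB k` (an explicit primitive recursive function) bounds the `k`-th derivative of
  `Real.smoothTransition`.
-/

namespace Crest.Agent.Helper23.Plateau

open Polynomial Real

/-! ### The polynomials `P k` with `expNegInvGlue^(k) x = P k (1/x) * expNegInvGlue x` -/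

/-- the polynomials `P k` -/
noncomputable def P : ℕ → ℝ[X]
  | 0 => 1
  | k + 1 => X ^ 2 * (P k - derivative (P k))

lemma iteratedDeriv_expNegInvGlue (k : ℕ) :
    iteratedDeriv k expNegInvGlue = fun x => (P k).eval x⁻¹ * expNegInvGlue x := by
  induction k with
  | zero => funext x; simp [P]
  | succ k ih =>
    rw [iteratedDeriv_succ, ih]
    funext x
    exact (expNegInvGlue.hasDerivAt_polynomial_eval_inv_mul (P k) x).deriv

/-- `p` has degree at most `d` and the sum of the absolute values of its coefficients is at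
most `M`. -/
def Bdd (p : ℝ[X]) (d : ℕ) (M : ℝ) : Prop :=
  p.natDegree ≤ d ∧ ∑ i ∈ Finset.range (d + 1), |p.coeff i| ≤ M

lemma Bdd.mono {p : ℝ[X]} {d : ℕ} {M M' : ℝ} (h : Bdd p d M) (hM : M ≤ M') : Bdd p d M' :=
  ⟨h.1, h.2.trans hM⟩

lemma Bdd_one : Bdd 1 0 1 := by
  refine ⟨by simp, ?_⟩
  simp

lemma Bdd_step {p : ℝ[X]} {d : ℕ} {M : ℝ} (h : Bdd p d M) :
    Bdd (X ^ 2 * (p - derivative p)) (d + 2) ((d + 1) * M) := by
  obtain ⟨hd, hM⟩ := h
  have hM0 : 0 ≤ M := le_trans (Finset.sum_nonneg fun i _ => abs_nonneg _) hM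
  constructor
  · have h1 : (p - derivative p).natDegree ≤ d :=
      (natDegree_sub_le _ _).trans (max_le hd ((natDegree_derivative_le p).trans (by omega)))
    calc (X ^ 2 * (p - derivative p)).natDegree
        ≤ (X ^ 2 : ℝ[X]).natDegree + (p - derivative p).natDegree := natDegree_mul_le
      _ ≤ 2 + d := by
          gcongr
          exact (natDegree_X_pow_le 2)
      _ = d + 2 := by ring
  · rw [Finset.sum_range_succ', Finset.sum_range_succ']
    have e0 : (X ^ 2 * (p - derivative p)).coeff 0 = 0 := by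
      rw [coeff_X_pow_mul']; simp
    have e1 : (X ^ 2 * (p - derivative p)).coeff (0 + 1) = 0 := by
      rw [coeff_X_pow_mul']; simp
    have e2 : ∀ i, (X ^ 2 * (p - derivative p)).coeff (i + 1 + 1)
        = p.coeff i - p.coeff (i + 1) * ((i : ℝ) + 1) := by
      intro i
      rw [show i + 1 + 1 = i + 2 by ring, coeff_X_pow_mul, coeff_sub, coeff_derivative]
    rw [e0, e1]
    simp only [e2, abs_zero, add_zero]
    have hlast : p.coeff (d + 1) = 0 := coeff_eq_zero_of_natDegree_lt (by omega)
    have hs1 : ∑ i ∈ Finset.range (d + 1), |p.coeff (i + 1)| * ((i : ℝ) + 1)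
        ≤ d * ∑ i ∈ Finset.range (d + 1), |p.coeff i| := by
      rw [Finset.sum_range_succ, hlast, abs_zero, zero_mul, add_zero, Finset.sum_range_succ']
      have : ∑ i ∈ Finset.range d, |p.coeff (i + 1)| * ((i : ℝ) + 1)
          ≤ ∑ i ∈ Finset.range d, (d : ℝ) * |p.coeff (i + 1)| := by
        apply Finset.sum_le_sum
        intro i hi
        have hi' : (i : ℝ) + 1 ≤ d := by
          have := Finset.mem_range.mp hi
          exact_mod_cast this
        rw [mul_comm]
        exact mul_le_mul_of_nonneg_right hi' (abs_nonneg _)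
      have h0 : 0 ≤ (d : ℝ) * |p.coeff 0| := by positivity
      rw [mul_add]
      rw [← Finset.mul_sum] at this
      linarith
    calc ∑ i ∈ Finset.range (d + 1), |p.coeff i - p.coeff (i + 1) * ((i : ℝ) + 1)|
        ≤ ∑ i ∈ Finset.range (d + 1), (|p.coeff i| + |p.coeff (i + 1)| * ((i : ℝ) + 1)) := by
          apply Finset.sum_le_sum
          intro i _
          calc |p.coeff i - p.coeff (i + 1) * ((i : ℝ) + 1)|
              ≤ |p.coeff i| + |p.coeff (i + 1) * ((i : ℝ) + 1)| := abs_sub _ _
            _ = |p.coeff i| + |p.coeff (i + 1)| * ((i : ℝ) + 1) := by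
                rw [abs_mul, abs_of_nonneg (by positivity : (0:ℝ) ≤ (i : ℝ) + 1)]
      _ = ∑ i ∈ Finset.range (d + 1), |p.coeff i|
            + ∑ i ∈ Finset.range (d + 1), |p.coeff (i + 1)| * ((i : ℝ) + 1) :=
          Finset.sum_add_distrib
      _ ≤ M + d * M := by
          have := mul_le_mul_of_nonneg_left hM (Nat.cast_nonneg d : (0:ℝ) ≤ d)
          linarith
      _ = (d + 1) * M := by ring

lemma pow_mul_exp_neg_le {y : ℝ} (hy : 0 ≤ y) (i : ℕ) : y ^ i * exp (-y) ≤ i.factorial := by
  have h := Real.pow_div_factorial_le_exp (x := y) hy i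
  have hfac : (0:ℝ) < i.factorial := by exact_mod_cast Nat.factorial_pos i
  rw [div_le_iff₀ hfac] at h
  rw [Real.exp_neg]
  rw [← div_eq_mul_inv, div_le_iff₀ (Real.exp_pos y)]
  linarith

lemma Bdd_eval {p : ℝ[X]} {d : ℕ} {M : ℝ} (h : Bdd p d M) {y : ℝ} (hy : 0 ≤ y) :
    |p.eval y| * exp (-y) ≤ M * d.factorial := by
  obtain ⟨hd, hM⟩ := h
  rw [eval_eq_sum_range' (n := d + 1) (by omega)]
  have hexp : 0 ≤ exp (-y) := (Real.exp_pos _).le
  calc |∑ i ∈ Finset.range (d + 1), p.coeff i * y ^ i| * exp (-y)
      ≤ (∑ i ∈ Finset.range (d + 1), |p.coeff i * y ^ i|) * exp (-y) :=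
        mul_le_mul_of_nonneg_right (Finset.abs_sum_le_sum_abs _ _) hexp
    _ = ∑ i ∈ Finset.range (d + 1), |p.coeff i| * (y ^ i * exp (-y)) := by
        rw [Finset.sum_mul]
        apply Finset.sum_congr rfl
        intro i _
        rw [abs_mul, abs_of_nonneg (pow_nonneg hy i)]
        ring
    _ ≤ ∑ i ∈ Finset.range (d + 1), |p.coeff i| * (d.factorial : ℝ) := by
        apply Finset.sum_le_sum
        intro i hi
        apply mul_le_mul_of_nonneg_left _ (abs_nonneg _)
        have hi' : i ≤ d := by
          have := Finset.mem_range.mp hi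
          omega
        calc y ^ i * exp (-y) ≤ (i.factorial : ℝ) := pow_mul_exp_neg_le hy i
          _ ≤ d.factorial := by exact_mod_cast Nat.factorial_le hi'
    _ = (∑ i ∈ Finset.range (d + 1), |p.coeff i|) * (d.factorial : ℝ) := by
        rw [Finset.sum_mul]
    _ ≤ M * d.factorial := by
        apply mul_le_mul_of_nonneg_right hM
        positivity

lemma Bdd_P (k : ℕ) : Bdd (P k) (2 * k) ((2 * k).factorial) := by
  induction k with
  | zero => simpa [P] using Bdd_one
  | succ k ih =>
    have h := Bdd_step ih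
    have e : 2 * k + 2 = 2 * (k + 1) := by ring
    rw [e] at h
    refine h.mono ?_
    have h1 : (((2 * k : ℕ) : ℝ) + 1) * ((2 * k).factorial : ℝ) = ((2 * k + 1).factorial : ℝ) := by
      rw [Nat.factorial_succ]; push_cast; ring
    rw [h1]
    exact_mod_cast Nat.factorial_le (by omega)

/-- the bound for the derivatives of `expNegInvGlue` -/
def fB (k : ℕ) : ℕ := (2 * k).factorial * (2 * k).factorial

theorem expNegInvGlue_iteratedDeriv_le (k : ℕ) (x : ℝ) :
    |iteratedDeriv k expNegInvGlue x| ≤ (fB k : ℝ) := by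
  rw [iteratedDeriv_expNegInvGlue]
  simp only
  rcases le_or_gt x 0 with hx | hx
  · rw [expNegInvGlue.zero_of_nonpos hx, mul_zero, abs_zero]
    positivity
  · have hval : expNegInvGlue x = exp (-x⁻¹) := by
      simp [expNegInvGlue, not_le.2 hx]
    rw [hval, abs_mul, abs_of_pos (Real.exp_pos _)]
    have h := Bdd_eval (Bdd_P k) (inv_nonneg.mpr hx.le)
    simpa [fB] using h

theorem fB_pos (k : ℕ) : 0 < fB k := by
  unfold fB
  positivity

theorem fB_mono : Monotone fB := by
  intro a b hab
  unfold fB
  have h : (2 * a).factorial ≤ (2 * b).factorial := Nat.factorial_le (by omega)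
  exact Nat.mul_le_mul h h

/-! ### The denominator of `smoothTransition` and its reciprocal -/

open scoped ContDiff

/-- the denominator of `Real.smoothTransition` -/
noncomputable def den : ℝ → ℝ := expNegInvGlue + fun x => expNegInvGlue (1 - x)

lemma den_apply (x : ℝ) : den x = expNegInvGlue x + expNegInvGlue (1 - x) := rfl

lemma contDiff_glue_refl : ContDiff ℝ ∞ (fun x : ℝ => expNegInvGlue (1 - x)) :=
  expNegInvGlue.contDiff.comp (contDiff_const.sub contDiff_id)

lemma den_contDiff : ContDiff ℝ ∞ den :=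
  expNegInvGlue.contDiff.add contDiff_glue_refl

lemma cda {f : ℝ → ℝ} (h : ContDiff ℝ ∞ f) (k : ℕ) (x : ℝ) : ContDiffAt ℝ k f x :=
  (h.of_le (by exact_mod_cast le_top)).contDiffAt

lemma exp_neg_two_ge : (1:ℝ) / 8 ≤ Real.exp (-2) := by
  have h1 : Real.exp 2 ≤ 8 := by
    have h := Real.exp_one_lt_d9
    have h0 := Real.exp_pos 1
    have e : Real.exp 2 = Real.exp 1 * Real.exp 1 := by
      rw [← Real.exp_add]; norm_num
    rw [e]
    nlinarith
  rw [Real.exp_neg, one_div]
  exact inv_anti₀ (Real.exp_pos 2) h1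

lemma den_ge (x : ℝ) : (1:ℝ) / 8 ≤ den x := by
  have h2 : (1:ℝ) / 8 ≤ expNegInvGlue (1 / 2) := by
    have : expNegInvGlue (1 / 2) = Real.exp (-2) := by
      simp only [expNegInvGlue]
      norm_num
    rw [this]
    exact exp_neg_two_ge
  rw [den_apply]
  rcases le_total x (1 / 2) with h | h
  · have h3 := expNegInvGlue.monotone (by linarith : (1:ℝ) / 2 ≤ 1 - x)
    have h4 := expNegInvGlue.nonneg x
    linarith
  · have h3 := expNegInvGlue.monotone h
    have h4 := expNegInvGlue.nonneg (1 - x)
    linarith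

lemma den_pos (x : ℝ) : 0 < den x := lt_of_lt_of_le (by norm_num) (den_ge x)

lemma iteratedDeriv_den_le (k : ℕ) (x : ℝ) : |iteratedDeriv k den x| ≤ 2 * (fB k : ℝ) := by
  unfold den
  rw [iteratedDeriv_add (cda expNegInvGlue.contDiff k x) (cda contDiff_glue_refl k x),
    iteratedDeriv_comp_const_sub]
  simp only [smul_eq_mul]
  have h1 := expNegInvGlue_iteratedDeriv_le k x
  have h2 := expNegInvGlue_iteratedDeriv_le k (1 - x)
  have h3 : |(-1 : ℝ) ^ k * iteratedDeriv k expNegInvGlue (1 - x)|
      = |iteratedDeriv k expNegInvGlue (1 - x)| := by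
    rw [abs_mul, abs_pow, abs_neg, abs_one, one_pow, one_mul]
  calc |iteratedDeriv k expNegInvGlue x + (-1 : ℝ) ^ k * iteratedDeriv k expNegInvGlue (1 - x)|
      ≤ |iteratedDeriv k expNegInvGlue x|
          + |(-1 : ℝ) ^ k * iteratedDeriv k expNegInvGlue (1 - x)| := abs_add_le _ _
    _ ≤ 2 * (fB k : ℝ) := by rw [h3]; linarith

/-- the reciprocal of the denominator -/
noncomputable def rden (x : ℝ) : ℝ := (den x)⁻¹

lemma rden_contDiff : ContDiff ℝ ∞ rden :=
  den_contDiff.inv fun x => (den_pos x).ne'

/-- bound for the derivatives of `rden` -/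
def gB : ℕ → ℕ
  | 0 => 8
  | k + 1 => 8 * 2 ^ (k + 1) * (2 * fB (k + 1)) * gB k

lemma gB_pos (k : ℕ) : 0 < gB k := by
  induction k with
  | zero => simp [gB]
  | succ k ih =>
    have := fB_pos (k + 1)
    simp only [gB]
    positivity

lemma gB_le_succ (k : ℕ) : gB k ≤ gB (k + 1) := by
  have h1 : 1 ≤ 8 * 2 ^ (k + 1) * (2 * fB (k + 1)) := by
    have := fB_pos (k + 1)
    have h2 : 0 < 8 * 2 ^ (k + 1) * (2 * fB (k + 1)) := by positivity
    omega
  calc gB k = 1 * gB k := (one_mul _).symm
    _ ≤ 8 * 2 ^ (k + 1) * (2 * fB (k + 1)) * gB k := Nat.mul_le_mul_right _ h1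

theorem gB_mono : Monotone gB := monotone_nat_of_le_succ gB_le_succ

lemma sum_choose_succ_le (m : ℕ) :
    ∑ i ∈ Finset.range (m + 1), ((m + 1).choose (i + 1) : ℝ) ≤ 2 ^ (m + 1) := by
  have h := Nat.sum_range_choose (m + 1)
  rw [Finset.sum_range_succ'] at h
  have h' : ∑ i ∈ Finset.range (m + 1), (m + 1).choose (i + 1) ≤ 2 ^ (m + 1) := by omega
  exact_mod_cast h'

lemma iteratedDeriv_rden_le (k : ℕ) : ∀ x : ℝ, |iteratedDeriv k rden x| ≤ (gB k : ℝ) := by
  induction k using Nat.strong_induction_on with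
  | _ k ih =>
    intro x
    rcases Nat.eq_zero_or_pos k with rfl | hk
    · simp only [iteratedDeriv_zero, gB, rden]
      rw [abs_of_pos (inv_pos.mpr (den_pos x))]
      have h := den_ge x
      rw [inv_le_comm₀ (den_pos x) (by norm_num)]
      norm_num
      linarith
    · obtain ⟨m, rfl⟩ : ∃ m, k = m + 1 := ⟨k - 1, by omega⟩
      have hL := iteratedDeriv_mul (cda den_contDiff (m + 1) x) (cda rden_contDiff (m + 1) x)
      have hone : den * rden = fun _ => (1:ℝ) := by
        funext y
        simp [rden, mul_inv_cancel₀ (den_pos y).ne']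
      rw [hone, iteratedDeriv_const, if_neg (Nat.succ_ne_zero m), Finset.sum_range_succ'] at hL
      simp only [Nat.choose_zero_right, Nat.cast_one, iteratedDeriv_zero, one_mul,
        Nat.sub_zero] at hL
      -- hL : 0 = ∑ i ∈ range (m+1), choose (m+1) (i+1) * den^(i+1) x * rden^(m+1-(i+1)) x
      --            + den x * rden^(m+1) x
      have hsum : |∑ i ∈ Finset.range (m + 1), ((m + 1).choose (i + 1) : ℝ)
            * iteratedDeriv (i + 1) den x * iteratedDeriv (m + 1 - (i + 1)) rden x|
          ≤ 2 ^ (m + 1) * (2 * (fB (m + 1) : ℝ)) * (gB m : ℝ) := by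
        calc |∑ i ∈ Finset.range (m + 1), ((m + 1).choose (i + 1) : ℝ)
                * iteratedDeriv (i + 1) den x * iteratedDeriv (m + 1 - (i + 1)) rden x|
            ≤ ∑ i ∈ Finset.range (m + 1), |((m + 1).choose (i + 1) : ℝ)
                * iteratedDeriv (i + 1) den x * iteratedDeriv (m + 1 - (i + 1)) rden x| :=
              Finset.abs_sum_le_sum_abs _ _
          _ ≤ ∑ i ∈ Finset.range (m + 1), ((m + 1).choose (i + 1) : ℝ)
                * (2 * (fB (m + 1) : ℝ)) * (gB m : ℝ) := by
              apply Finset.sum_le_sum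
              intro i hi
              have hi' : i < m + 1 := Finset.mem_range.mp hi
              rw [abs_mul, abs_mul, abs_of_nonneg (Nat.cast_nonneg _)]
              have hd : |iteratedDeriv (i + 1) den x| ≤ 2 * (fB (m + 1) : ℝ) := by
                refine (iteratedDeriv_den_le (i + 1) x).trans ?_
                have : fB (i + 1) ≤ fB (m + 1) := fB_mono (by omega)
                have : (fB (i + 1) : ℝ) ≤ fB (m + 1) := by exact_mod_cast this
                linarith
              have hg : |iteratedDeriv (m + 1 - (i + 1)) rden x| ≤ (gB m : ℝ) := by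
                refine (ih (m + 1 - (i + 1)) (by omega) x).trans ?_
                exact_mod_cast gB_mono (by omega)
              gcongr
          _ = (∑ i ∈ Finset.range (m + 1), ((m + 1).choose (i + 1) : ℝ))
                * (2 * (fB (m + 1) : ℝ)) * (gB m : ℝ) := by
              rw [Finset.sum_mul, Finset.sum_mul]
          _ ≤ 2 ^ (m + 1) * (2 * (fB (m + 1) : ℝ)) * (gB m : ℝ) := by
              have := sum_choose_succ_le m
              gcongr
      have hprod : |den x * iteratedDeriv (m + 1) rden x|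
          ≤ 2 ^ (m + 1) * (2 * (fB (m + 1) : ℝ)) * (gB m : ℝ) := by
        have : den x * iteratedDeriv (m + 1) rden x
            = -∑ i ∈ Finset.range (m + 1), ((m + 1).choose (i + 1) : ℝ)
              * iteratedDeriv (i + 1) den x * iteratedDeriv (m + 1 - (i + 1)) rden x := by
          linarith
        rw [this, abs_neg]
        exact hsum
      rw [abs_mul, abs_of_pos (den_pos x)] at hprod
      have hden := den_ge x
      have hnn : 0 ≤ |iteratedDeriv (m + 1) rden x| := abs_nonneg _
      have h8 : |iteratedDeriv (m + 1) rden x| ≤ 8 * (den x * |iteratedDeriv (m + 1) rden x|) := by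
        nlinarith
      simp only [gB]
      push_cast
      calc |iteratedDeriv (m + 1) rden x|
          ≤ 8 * (den x * |iteratedDeriv (m + 1) rden x|) := h8
        _ ≤ 8 * (2 ^ (m + 1) * (2 * (fB (m + 1) : ℝ)) * (gB m : ℝ)) := by gcongr
        _ = 8 * 2 ^ (m + 1) * (2 * (fB (m + 1) : ℝ)) * (gB m : ℝ) := by ring

/-! ### The bound for `Real.smoothTransition` -/

/-- the bound for the derivatives of `Real.smoothTransition` -/
def sB (k : ℕ) : ℕ := 2 ^ k * fB k * gB k

lemma smoothTransition_eq : Real.smoothTransition = expNegInvGlue * rden := by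
  funext y
  simp [Real.smoothTransition, rden, den_apply, div_eq_mul_inv]

theorem smoothTransition_iteratedDeriv_le (k : ℕ) (x : ℝ) :
    |iteratedDeriv k Real.smoothTransition x| ≤ (sB k : ℝ) := by
  rw [smoothTransition_eq,
    iteratedDeriv_mul (cda expNegInvGlue.contDiff k x) (cda rden_contDiff k x)]
  calc |∑ i ∈ Finset.range (k + 1), (k.choose i : ℝ) * iteratedDeriv i expNegInvGlue x
          * iteratedDeriv (k - i) rden x|
      ≤ ∑ i ∈ Finset.range (k + 1), |(k.choose i : ℝ) * iteratedDeriv i expNegInvGlue x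
          * iteratedDeriv (k - i) rden x| := Finset.abs_sum_le_sum_abs _ _
    _ ≤ ∑ i ∈ Finset.range (k + 1), (k.choose i : ℝ) * (fB k : ℝ) * (gB k : ℝ) := by
        apply Finset.sum_le_sum
        intro i hi
        have hi' : i < k + 1 := Finset.mem_range.mp hi
        rw [abs_mul, abs_mul, abs_of_nonneg (Nat.cast_nonneg _)]
        have hf : |iteratedDeriv i expNegInvGlue x| ≤ (fB k : ℝ) := by
          refine (expNegInvGlue_iteratedDeriv_le i x).trans ?_
          exact_mod_cast fB_mono (by omega)
        have hg : |iteratedDeriv (k - i) rden x| ≤ (gB k : ℝ) := by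
          refine (iteratedDeriv_rden_le (k - i) x).trans ?_
          exact_mod_cast gB_mono (by omega)
        gcongr
    _ = (∑ i ∈ Finset.range (k + 1), (k.choose i : ℝ)) * (fB k : ℝ) * (gB k : ℝ) := by
        rw [Finset.sum_mul, Finset.sum_mul]
    _ = (sB k : ℝ) := by
        have h := Nat.sum_range_choose k
        have h' : ∑ i ∈ Finset.range (k + 1), (k.choose i : ℝ) = 2 ^ k := by exact_mod_cast h
        rw [h']
        simp [sB]

theorem sB_mono : Monotone sB := by
  intro a b hab
  unfold sB
  have h1 : 2 ^ a ≤ 2 ^ b := Nat.pow_le_pow_right (by norm_num) hab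
  exact Nat.mul_le_mul (Nat.mul_le_mul h1 (fB_mono hab)) (gB_mono hab)

theorem sB_pos (k : ℕ) : 0 < sB k := by
  have h1 := fB_pos k
  have h2 := gB_pos k
  unfold sB
  positivity

/-- the reparametrised plateau -/
theorem smoothTransition_comp_iteratedDeriv_le (c d : ℝ) (k : ℕ) (y : ℝ) :
    |iteratedDeriv k (fun x => Real.smoothTransition (c * x + d)) y| ≤ |c| ^ k * (sB k : ℝ) := by
  have h1 : ContDiff ℝ k (fun z => Real.smoothTransition (z + d)) :=
    Real.smoothTransition.contDiff.comp (contDiff_id.add contDiff_const)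
  have h2 := iteratedDeriv_comp_const_mul h1 c
  rw [h2, iteratedDeriv_comp_add_const]
  rw [abs_mul, abs_pow]
  exact mul_le_mul_of_nonneg_left (smoothTransition_iteratedDeriv_le k _) (by positivity)

/-! ### Flatness of the plateau outside `(0, 1)` -/

theorem deriv_smoothTransition_of_nonpos {x : ℝ} (hx : x ≤ 0) :
    deriv Real.smoothTransition x = 0 := by
  apply IsLocalMin.deriv_eq_zero
  refine Filter.Eventually.of_forall fun y => ?_
  rw [Real.smoothTransition.zero_of_nonpos hx]
  exact Real.smoothTransition.nonneg y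

theorem deriv_smoothTransition_of_one_le {x : ℝ} (hx : 1 ≤ x) :
    deriv Real.smoothTransition x = 0 := by
  apply IsLocalMax.deriv_eq_zero
  refine Filter.Eventually.of_forall fun y => ?_
  rw [Real.smoothTransition.one_of_one_le hx]
  exact Real.smoothTransition.le_one y

theorem iteratedDeriv_smoothTransition_of_neg {k : ℕ} (hk : k ≠ 0) {x : ℝ} (hx : x < 0) :
    iteratedDeriv k Real.smoothTransition x = 0 := by
  have h : Real.smoothTransition =ᶠ[nhds x] fun _ => (0:ℝ) := by
    filter_upwards [gt_mem_nhds hx] with y hy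
    exact Real.smoothTransition.zero_of_nonpos hy.le
  rw [h.iteratedDeriv_eq k, iteratedDeriv_const, if_neg hk]

theorem iteratedDeriv_smoothTransition_of_one_lt {k : ℕ} (hk : k ≠ 0) {x : ℝ} (hx : 1 < x) :
    iteratedDeriv k Real.smoothTransition x = 0 := by
  have h : Real.smoothTransition =ᶠ[nhds x] fun _ => (1:ℝ) := by
    filter_upwards [lt_mem_nhds hx] with y hy
    exact Real.smoothTransition.one_of_one_le hy.le
  rw [h.iteratedDeriv_eq k, iteratedDeriv_const, if_neg hk]

lemma continuous_iteratedDeriv_smoothTransition (k : ℕ) :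
    Continuous (iteratedDeriv k Real.smoothTransition) :=
  (Real.smoothTransition.contDiff (n := ⊤)).continuous_iteratedDeriv k
    (by exact_mod_cast le_top)

theorem iteratedDeriv_smoothTransition_of_nonpos {k : ℕ} (hk : k ≠ 0) {x : ℝ} (hx : x ≤ 0) :
    iteratedDeriv k Real.smoothTransition x = 0 := by
  rcases hx.lt_or_eq with h | rfl
  · exact iteratedDeriv_smoothTransition_of_neg hk h
  · have hc := (continuous_iteratedDeriv_smoothTransition k).continuousAt (x := (0:ℝ))
    have h1 : Filter.Tendsto (iteratedDeriv k Real.smoothTransition) (nhdsWithin 0 (Set.Iio 0))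
        (nhds (iteratedDeriv k Real.smoothTransition 0)) := hc.mono_left nhdsWithin_le_nhds
    have h2 : Filter.Tendsto (iteratedDeriv k Real.smoothTransition) (nhdsWithin 0 (Set.Iio 0))
        (nhds 0) := by
      refine tendsto_const_nhds.congr' ?_
      filter_upwards [self_mem_nhdsWithin] with y hy
      exact (iteratedDeriv_smoothTransition_of_neg hk hy).symm
    exact tendsto_nhds_unique h1 h2

theorem iteratedDeriv_smoothTransition_of_one_le {k : ℕ} (hk : k ≠ 0) {x : ℝ} (hx : 1 ≤ x) :
    iteratedDeriv k Real.smoothTransition x = 0 := by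
  rcases hx.lt_or_eq with h | rfl
  · exact iteratedDeriv_smoothTransition_of_one_lt hk h
  · have hc := (continuous_iteratedDeriv_smoothTransition k).continuousAt (x := (1:ℝ))
    have h1 : Filter.Tendsto (iteratedDeriv k Real.smoothTransition) (nhdsWithin 1 (Set.Ioi 1))
        (nhds (iteratedDeriv k Real.smoothTransition 1)) := hc.mono_left nhdsWithin_le_nhds
    have h2 : Filter.Tendsto (iteratedDeriv k Real.smoothTransition) (nhdsWithin 1 (Set.Ioi 1))
        (nhds 0) := by
      refine tendsto_const_nhds.congr' ?_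
      filter_upwards [self_mem_nhdsWithin] with y hy
      exact (iteratedDeriv_smoothTransition_of_one_lt hk hy).symm
    exact tendsto_nhds_unique h1 h2

/-! ### Primitive recursiveness of the bounds -/

theorem primrec_factorial : Primrec Nat.factorial := by
  have h : Primrec (Nat.rec (motive := fun _ => ℕ) 1 fun n ih => (n + 1) * ih) :=
    Primrec.nat_rec₁ 1 (Primrec.nat_mul.comp₂ (Primrec.succ.comp₂ Primrec₂.left) Primrec₂.right)
  refine h.of_eq fun n => ?_
  induction n with
  | zero => rfl
  | succ n ih => simp only [Nat.factorial_succ, ← ih]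

theorem primrec_two_pow : Primrec (fun k : ℕ => 2 ^ k) := by
  have h : Primrec (Nat.rec (motive := fun _ => ℕ) 1 fun _ ih => 2 * ih) :=
    Primrec.nat_rec₁ 1 (Primrec.nat_mul.comp₂ (Primrec₂.const 2) Primrec₂.right)
  refine h.of_eq fun n => ?_
  induction n with
  | zero => rfl
  | succ n ih => simp only [pow_succ, ← ih]; ring

theorem primrec_fB : Primrec fB := by
  have h2 : Primrec (fun k : ℕ => 2 * k) := Primrec.nat_mul.comp (Primrec.const 2) Primrec.id
  have h3 : Primrec (fun k : ℕ => (2 * k).factorial) := primrec_factorial.comp h2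
  exact Primrec.nat_mul.comp h3 h3

theorem primrec_gB : Primrec gB := by
  have hstep : Primrec₂ (fun (k : ℕ) (ih : ℕ) => 8 * 2 ^ (k + 1) * (2 * fB (k + 1)) * ih) := by
    have hk1 : Primrec₂ (fun (k : ℕ) (_ : ℕ) => k + 1) := Primrec.succ.comp₂ Primrec₂.left
    have hpow : Primrec₂ (fun (k : ℕ) (_ : ℕ) => 2 ^ (k + 1)) := primrec_two_pow.comp₂ hk1
    have hf : Primrec₂ (fun (k : ℕ) (_ : ℕ) => fB (k + 1)) := primrec_fB.comp₂ hk1
    have h8 : Primrec₂ (fun (k : ℕ) (_ : ℕ) => 8 * 2 ^ (k + 1)) :=
      Primrec.nat_mul.comp₂ (Primrec₂.const 8) hpow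
    have h2f : Primrec₂ (fun (k : ℕ) (_ : ℕ) => 2 * fB (k + 1)) :=
      Primrec.nat_mul.comp₂ (Primrec₂.const 2) hf
    exact Primrec.nat_mul.comp₂ (Primrec.nat_mul.comp₂ h8 h2f) Primrec₂.right
  have h : Primrec (Nat.rec (motive := fun _ => ℕ) 8
      fun k ih => 8 * 2 ^ (k + 1) * (2 * fB (k + 1)) * ih) := Primrec.nat_rec₁ 8 hstep
  refine h.of_eq fun n => ?_
  induction n with
  | zero => rfl
  | succ n ih => simp only [gB, ← ih]

theorem primrec_sB : Primrec sB :=
  Primrec.nat_mul.comp (Primrec.nat_mul.comp primrec_two_pow primrec_fB) primrec_gB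

theorem computable_fB : Computable fB := primrec_fB.to_comp

theorem computable_sB : Computable sB := primrec_sB.to_comp

end Crest.Agent.Helper23.Plateau
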