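import Crest.Agent.Helper13.BoxEff
import Crest.Agent.Helper6.BoxFlowStage
import Crest.Agent.Helper2.Sigma
import Crest.Agent.Helper28.QCompProof

/-!
# The stage fields are smooth and effective (module STAGE-EFF for S0170)
-/

set_option autoImplicit false
open scoped ContDiff

namespace Crest.Agent.Helper23.StageEff

open Crest.AnalysisR.BoxFlow Crest.Agent.Helper13 Crest.Agent.Helper6

/-- `Eff1` only depends on the function. -/
theorem eff1_congr {f g : ℝ → ℝ} (hf : Eff1 f) (h : ∀ x, g x = f x) : Eff1 g := by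
  have : g = f := funext h
  rw [this]; exact hf

/-- multiplication by a rational quadratic of an `Eff1` function vanishing outside `[-R, R]` -/
theorem eff1_quad_mul (hQ : QComp) {f : ℝ → ℝ} (hf : Eff1 f) (R : ℕ)
    (hR : ∀ x : ℝ, (R : ℝ) < |x| → f x = 0) (c₀ c₁ c₂ : ℚ) :
    Eff1 (fun x => ((c₀ : ℝ) + (c₁ : ℝ) * x + (c₂ : ℝ) * x ^ 2) * f x) := by
  have h1 : Eff1 (fun x => x * f x) := Eff1.id_mul hQ hf R hR
  have hR1 : ∀ x : ℝ, (R : ℝ) < |x| → x * f x = 0 := fun x hx => by rw [hR x hx, mul_zero]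
  have h2 : Eff1 (fun x => x * (x * f x)) := Eff1.id_mul hQ h1 R hR1
  have h3 := Eff1.add hQ (Eff1.const_mul hQ c₀ hf)
    (Eff1.add hQ (Eff1.const_mul hQ c₁ h1) (Eff1.const_mul hQ c₂ h2))
  exact eff1_congr h3 fun x => by ring

section
variable (hQ : QComp) (hS : Eff1 Real.smoothTransition)
include hQ hS

theorem eff1_step (a b : ℚ) : Eff1 (step a b) :=
  Eff1.comp_affine hQ hS a b

theorem eff1_plateau (l r δ : ℚ) : Eff1 (plateau l r δ) :=
  Eff1.sub hQ (eff1_step hQ hS _ _) (eff1_step hQ hS _ _)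

theorem eff1_theta (τ₀ τ₁ : ℚ) : Eff1 (theta τ₀ τ₁) :=
  eff1_step hQ hS _ _

theorem eff1_stageG (τ₀ τ₁ : ℚ) : Eff1 (stageG τ₀ τ₁) :=
  Eff1.deriv (eff1_theta hQ hS τ₀ τ₁)

theorem eff1_stageGneg (τ₀ τ₁ : ℚ) : Eff1 (stageGneg τ₀ τ₁) :=
  Eff1.const_mul hQ (-1) (eff1_stageG hQ hS τ₀ τ₁)

theorem eff1_stageP (lo hi : Fin 3 → ℚ) (δ : ℚ) (m : Fin 3) : Eff1 (stageP lo hi δ m) :=
  eff1_plateau hQ hS _ _ _

end

/-- the plateau vanishes far away -/
theorem plateau_eq_zero_of_large (l r δ : ℚ) (hδ : 0 < δ) (x : ℝ)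
    (hx : ((⌈|l| + |r| + δ⌉₊ : ℕ) : ℝ) < |x|) : plateau l r δ x = 0 := by
  have hδ' : (0 : ℝ) < (δ : ℝ) := by exact_mod_cast hδ
  have hR : ((|l| + |r| + δ : ℚ) : ℝ) ≤ ((⌈|l| + |r| + δ⌉₊ : ℕ) : ℝ) := by
    have := Nat.le_ceil (|l| + |r| + δ)
    exact_mod_cast this
  push_cast at hR
  have hl := abs_nonneg (l : ℝ)
  have hr := abs_nonneg (r : ℝ)
  have hl1 := le_abs_self (l : ℝ)
  have hl2 := neg_abs_le (l : ℝ)
  have hr1 := le_abs_self (r : ℝ)
  have hr2 := neg_abs_le (r : ℝ)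
  unfold plateau step
  rcases lt_abs.mp hx with h | h
  · -- x large: both steps are 1
    have h1 : (1 : ℝ) ≤ ((δ⁻¹ : ℚ) : ℝ) * x + (((δ - l) / δ : ℚ) : ℝ) := by
      push_cast
      rw [show (δ : ℝ)⁻¹ * x + ((δ : ℝ) - l) / δ = (x + δ - l) / δ by field_simp; ring,
        le_div_iff₀ hδ']
      linarith
    have h2 : (1 : ℝ) ≤ ((δ⁻¹ : ℚ) : ℝ) * x + ((-r / δ : ℚ) : ℝ) := by
      push_cast
      rw [show (δ : ℝ)⁻¹ * x + -(r : ℝ) / δ = (x - r) / δ by field_simp; ring,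
        le_div_iff₀ hδ']
      linarith
    rw [Real.smoothTransition.one_of_one_le h1, Real.smoothTransition.one_of_one_le h2, sub_self]
  · -- x very negative: both steps are 0
    have h1 : ((δ⁻¹ : ℚ) : ℝ) * x + (((δ - l) / δ : ℚ) : ℝ) ≤ 0 := by
      push_cast
      rw [show (δ : ℝ)⁻¹ * x + ((δ : ℝ) - l) / δ = (x + δ - l) / δ by field_simp; ring,
        div_le_iff₀ hδ']
      linarith
    have h2 : ((δ⁻¹ : ℚ) : ℝ) * x + ((-r / δ : ℚ) : ℝ) ≤ 0 := by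
      push_cast
      rw [show (δ : ℝ)⁻¹ * x + -(r : ℝ) / δ = (x - r) / δ by field_simp; ring,
        div_le_iff₀ hδ']
      linarith
    rw [Real.smoothTransition.zero_of_nonpos h1, Real.smoothTransition.zero_of_nonpos h2, sub_self]

section
variable (hQ : QComp) (hS : Eff1 Real.smoothTransition)
include hQ hS

theorem eff1_quadP (α κ c l r δ : ℚ) (hδ : 0 < δ) : Eff1 (quadP α κ c l r δ) := by
  have hP := eff1_plateau hQ hS l r δ
  have hR := plateau_eq_zero_of_large l r δ hδ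
  have h1 : Eff1 (fun x => x * plateau l r δ x) := Eff1.id_mul hQ hP _ hR
  have hR1 : ∀ x : ℝ, ((⌈|l| + |r| + δ⌉₊ : ℕ) : ℝ) < |x| → x * plateau l r δ x = 0 :=
    fun x hx => by rw [hR x hx, mul_zero]
  have h2 : Eff1 (fun x => x * (x * plateau l r δ x)) := Eff1.id_mul hQ h1 _ hR1
  exact Eff1.add hQ (Eff1.const_mul hQ (κ / 2) h2)
    (Eff1.add hQ (Eff1.const_mul hQ (α - κ * c) h1) (Eff1.const_mul hQ (κ * c ^ 2 / 2) hP))

theorem eff1_stageQ (l : Fin 3) (α κ c : ℚ) (lo hi : Fin 3 → ℚ) (δ : ℚ) (hδ : 0 < δ) :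
    Eff1 (stageQ l α κ c lo hi δ) :=
  eff1_quadP hQ hS α κ c _ _ δ hδ

theorem eff1_stageF₁ (l : Fin 3) (α κ c : ℚ) (lo hi : Fin 3 → ℚ) (δ : ℚ) (hδ : 0 < δ)
    (m : Fin 3) : Eff1 (stageF₁ l α κ c lo hi δ m) := by
  unfold stageF₁
  by_cases h : m = l
  · subst h
    rw [Function.update_self]
    exact Eff1.deriv (eff1_stageQ hQ hS m α κ c lo hi δ hδ)
  · rw [Function.update_of_ne h]
    exact eff1_stageP hQ hS lo hi δ m

theorem eff1_stageF₂ (j l : Fin 3) (α κ c : ℚ) (lo hi : Fin 3 → ℚ) (δ : ℚ) (hδ : 0 < δ)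
    (m : Fin 3) : Eff1 (stageF₂ j l α κ c lo hi δ m) := by
  unfold stageF₂
  by_cases h : m = j
  · subst h
    rw [Function.update_self]
    exact Eff1.deriv (eff1_stageP hQ hS lo hi δ m)
  · rw [Function.update_of_ne h]
    by_cases h' : m = l
    · subst h'
      rw [Function.update_self]
      exact eff1_stageQ hQ hS m α κ c lo hi δ hδ
    · rw [Function.update_of_ne h']
      exact eff1_stageP hQ hS lo hi δ m

/-- **STAGE-EFF.** The stage field is smooth and effective. -/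
theorem stageField_effS (j l : Fin 3) (α κ c : ℚ) (lo hi : Fin 3 → ℚ) (δ τ₀ τ₁ : ℚ)
    (hδ : 0 < δ) : EffS (stageField j l α κ c lo hi δ τ₀ τ₁) := by
  unfold stageField tens
  exact EffS.add hQ
    (EffS.tensor hQ (eff1_stageG hQ hS τ₀ τ₁) (eff1_stageF₁ hQ hS l α κ c lo hi δ hδ 0)
      (eff1_stageF₁ hQ hS l α κ c lo hi δ hδ 1) (eff1_stageF₁ hQ hS l α κ c lo hi δ hδ 2) j)
    (EffS.tensor hQ (eff1_stageGneg hQ hS τ₀ τ₁) (eff1_stageF₂ hQ hS j l α κ c lo hi δ hδ 0)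
      (eff1_stageF₂ hQ hS j l α κ c lo hi δ hδ 1) (eff1_stageF₂ hQ hS j l α κ c lo hi δ hδ 2) l)

end

/-- **STAGE-EFF, unconditional form.** Every stage field (with positive margin `δ`) is smooth and
effective. -/
theorem stageField_effS' (j l : Fin 3) (α κ c : ℚ) (lo hi : Fin 3 → ℚ) (δ τ₀ τ₁ : ℚ)
    (hδ : 0 < δ) : EffS (stageField j l α κ c lo hi δ τ₀ τ₁) :=
  stageField_effS Crest.Agent.Helper28.qComp Crest.Agent.Helper2.eff1_smoothTransition
    j l α κ c lo hi δ τ₀ τ₁ hδ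

/-- the stage field is effective in the sense of the frozen definition -/
theorem stageField_effective (j l : Fin 3) (α κ c : ℚ) (lo hi : Fin 3 → ℚ) (δ τ₀ τ₁ : ℚ)
    (hδ : 0 < δ) : Effective (stageField j l α κ c lo hi δ τ₀ τ₁) :=
  (stageField_effS' j l α κ c lo hi δ τ₀ τ₁ hδ).2

end Crest.Agent.Helper23.StageEff
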